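import Vale.Agent.P097.H970.D4.Core
import Vale.Agent.P097.Disc.Defs

/-! # P097 / disc / D4 (helper970): linear rigidity of the one-sided conic -/

set_option linter.all false

open Finset

namespace Vale.Agent.P097.H970.D4

/-- algebraic numbers -/
abbrev QA : Type := algebraicClosure ℚ ℂ

theorem galQA : @IsGalois ℚ _ QA _ DivisionRing.toRatAlgebra := by
  have h : @IsGalois ℚ _ QA _ (algebraicClosure ℚ ℂ).algebra' := by
    haveI := algebraicClosure.isAlgClosure ℚ ℂ
    exact @IsAlgClosure.isGalois ℚ QA _ _ _ this _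
  have e : ((algebraicClosure ℚ ℂ).algebra' : Algebra ℚ QA) = DivisionRing.toRatAlgebra :=
    Subsingleton.elim _ _
  rw [← e]
  exact h

noncomputable def zC (m : ℕ) : ℂ := Complex.exp (2 * Real.pi * Complex.I / m)

theorem zC_prim {m : ℕ} (hm : 1 ≤ m) : IsPrimitiveRoot (zC m) m :=
  Complex.isPrimitiveRoot_exp m (by omega)

noncomputable def zQ (m : ℕ) : QA :=
  if h : 1 ≤ m then ⟨zC m, mem_algebraicClosure_iff.mpr
    ((zC_prim h).isIntegral h).tower_top.isAlgebraic⟩ else 1

theorem zQ_val {m : ℕ} (hm : 1 ≤ m) : algebraMap QA ℂ (zQ m) = zC m := by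
  unfold zQ
  rw [dif_pos hm]
  rfl

theorem zQ_prim {m : ℕ} (hm : 1 ≤ m) : IsPrimitiveRoot (zQ m) m := by
  have h := zC_prim hm
  rw [← zQ_val hm] at h
  exact IsPrimitiveRoot.of_map_of_injective h (algebraMap QA ℂ).injective

/-- rigidity over `ℂ` -/
theorem rigidC {g : ℕ → ℂ} {M : ℕ} (hM : 4 ≤ M)
    (H : ∀ m, M ≤ m → ∀ p, 0 < p → p * p ≤ m → Rel g m (zC m ^ p)) (i : ℕ) :
    g (2 * i + 1) = g 1 ∧ g (2 * i + 2) = g 2 := by
  haveI := galQA
  have main : ∀ φ : Module.Dual QA ℂ, φ (g (2 * i + 1)) = φ (g 1) ∧ φ (g (2 * i + 2)) = φ (g 2) := by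
    intro φ
    refine rigid (E := QA) (z := zQ) (fun m hm => zQ_prim hm) (g := fun k => φ (g k)) hM ?_ i
    intro m hm p hp hpm
    have h := congrArg φ (H m hm p hp hpm)
    rw [map_zero, map_sum] at h
    unfold Rel
    rw [← h]
    refine Finset.sum_congr rfl fun j _ => ?_
    have e : g (m - 2 * j) * cf m j * kap (zC m ^ p) ^ j
        = ((cf m j : QA) * kap (zQ m ^ p) ^ j) • g (m - 2 * j) := by
      rw [Algebra.smul_def, map_mul, map_pow]
      have h1 : algebraMap QA ℂ (cf m j) = cf m j := by simp [cf]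
      have h2 : algebraMap QA ℂ (kap (zQ m ^ p)) = kap (zC m ^ p) := by
        unfold kap
        rw [map_div₀, map_pow, map_pow, map_add, map_one, map_pow, zQ_val (by omega)]
      rw [h1, h2]; ring
    rw [e, map_smul, smul_eq_mul]
    ring
  constructor
  · have h : ∀ φ : Module.Dual QA ℂ, φ (g (2 * i + 1) - g 1) = 0 := fun φ => by
      rw [map_sub, (main φ).1, sub_self]
    exact sub_eq_zero.mp ((Module.forall_dual_apply_eq_zero_iff QA _).mp h)
  · have h : ∀ φ : Module.Dual QA ℂ, φ (g (2 * i + 2) - g 2) = 0 := fun φ => by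
      rw [map_sub, (main φ).2, sub_self]
    exact sub_eq_zero.mp ((Module.forall_dual_apply_eq_zero_iff QA _).mp h)

/-- the parameter is the one of the tables -/
theorem kap_cos {m p : ℕ} (hm : 1 ≤ m) (hc : (Real.cos (Real.pi * p / m) : ℂ) ≠ 0) :
    kap (zC m ^ p) = 1 / (4 * (Real.cos (Real.pi * p / m) : ℂ) ^ 2) := by
  set θ : ℂ := (Real.pi * p / m : ℂ) with hθ
  have h1 : zC m ^ p = Complex.exp (θ * Complex.I) * Complex.exp (θ * Complex.I) := by
    unfold zC
    rw [← Complex.exp_nat_mul, ← Complex.exp_add, hθ]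
    congr 1
    ring
  have hcos : (Real.cos (Real.pi * p / m) : ℂ)
      = (Complex.exp (θ * Complex.I) + Complex.exp (-θ * Complex.I)) / 2 := by
    rw [Complex.ofReal_cos, Complex.cos, hθ]
    push_cast
    rfl
  set e := Complex.exp (θ * Complex.I) with he
  have he' : Complex.exp (-θ * Complex.I) = e⁻¹ := by
    rw [neg_mul, Complex.exp_neg]
  have he0 : e ≠ 0 := Complex.exp_ne_zero _
  rw [hcos, he'] at hc ⊢
  rw [h1]
  unfold kap
  have h2 : 1 + e * e = e * (e + e⁻¹) := by field_simp; ring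
  have h3 : e + e⁻¹ ≠ 0 := by
    intro h0; apply hc; rw [h0]; simp
  rw [h2]
  field_simp
  norm_num

theorem D4_proof : Disc.D4 := by
  intro η c G hη0 hη1 hc H
  obtain ⟨M0, hM0⟩ := exists_nat_gt (1 / η ^ 2)
  set M := max M0 4 with hM
  set g : ℕ → ℂ := fun k => G k / c ^ ((k - 1) / 2) with hg
  have hrel : ∀ m, M ≤ m → ∀ p, 0 < p → p * p ≤ m → Rel g m (zC m ^ p) := by
    intro m hm p hp hpm
    have hm4 : 4 ≤ m := le_trans (le_max_right _ _) hm
    have hmM0 : (M0 : ℝ) ≤ m := by exact_mod_cast le_trans (le_max_left _ _) hm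
    have hmpos : (0 : ℝ) < m := by exact_mod_cast (by omega : 0 < m)
    have hppos : (0 : ℝ) < p := by exact_mod_cast hp
    have hlt : (p : ℝ) / m < η := by
      have h1 : (1 : ℝ) / η ^ 2 < m := lt_of_lt_of_le hM0 hmM0
      have h2 : 1 < η ^ 2 * m := by
        rw [div_lt_iff₀ (by positivity)] at h1
        linarith
      have h3 : (p : ℝ) * p ≤ m := by exact_mod_cast hpm
      have h4 : ((p : ℝ) / m) ^ 2 < η ^ 2 := by
        rw [div_pow, div_lt_iff₀ (by positivity)]
        nlinarith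
      exact lt_of_pow_lt_pow_left₀ 2 hη0.le h4
    have h := H m p hp hlt
    have hcos : (Real.cos (Real.pi * p / m) : ℂ) ≠ 0 := by
      have hpi := Real.pi_pos
      have : 0 < Real.cos (Real.pi * p / m) := by
        apply Real.cos_pos_of_mem_Ioo
        have e1 : Real.pi * p / m = Real.pi * (p / m) := by ring
        rw [e1]
        have h5 : 0 < (p : ℝ) / m := by positivity
        constructor
        · nlinarith
        · nlinarith
      exact_mod_cast this.ne'
    unfold Rel
    have hfac : c ^ ((m - 1) / 2) * (∑ j ∈ (range m).filter (fun j => 2 * j < m),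
        g (m - 2 * j) * cf m j * kap (zC m ^ p) ^ j) = 0 := by
      rw [← h, Finset.mul_sum]
      refine Finset.sum_congr rfl fun j hj => ?_
      simp only [mem_filter, mem_range] at hj
      have e2 : (m - 1) / 2 = (m - 2 * j - 1) / 2 + j := by omega
      rw [kap_cos (by omega) hcos, e2, pow_add]
      simp only [hg, cf]
      have hcp : c ^ ((m - 2 * j - 1) / 2) ≠ 0 := pow_ne_zero _ hc
      have e3 : (c / (4 * (Real.cos (Real.pi * p / m) : ℂ) ^ 2)) ^ j
          = c ^ j * (1 / (4 * (Real.cos (Real.pi * p / m) : ℂ) ^ 2)) ^ j := by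
        rw [← mul_pow]; congr 1; ring
      rw [e3]
      field_simp
    exact (mul_eq_zero.mp hfac).resolve_left (pow_ne_zero _ hc)
  refine ⟨G 1, G 2, fun i => ?_⟩
  obtain ⟨h1, h2⟩ := rigidC (M := M) (le_max_right _ _) hrel i
  simp only [hg] at h1 h2
  have e1 : (2 * i + 1 - 1) / 2 = i := by omega
  have e2 : (2 * i + 2 - 1) / 2 = i := by omega
  rw [e1] at h1
  rw [e2] at h2
  norm_num at h1 h2
  have hci : c ^ i ≠ 0 := pow_ne_zero _ hc
  constructor
  · rw [div_eq_iff hci] at h1; exact h1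
  · rw [div_eq_iff hci] at h2; exact h2

end Vale.Agent.P097.H970.D4

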