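import Mathlib

/-! # P097 / disc / D4 (helper970): the Chebyshev relation and comparison of coefficients -/

set_option linter.all false

open Finset

namespace Vale.Agent.P097.H970.D4

variable {E : Type*} [Field E]

/-- `w / (1 + w) ^ 2 = 1 / (4 cos ^ 2 θ)` for `w = exp (2 i θ)` -/
def kap (w : E) : E := w / (1 + w) ^ 2

def cf (m j : ℕ) : E := (-1) ^ j * ((m - j - 1).choose j : E)

/-- the relation of order `m` at `w` -/
def Rel (g : ℕ → E) (m : ℕ) (w : E) : Prop :=
  ∑ j ∈ (range m).filter (fun j => 2 * j < m), g (m - 2 * j) * cf m j * kap w ^ j = 0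

/-- `∑ C(a,b) y^b` over `a + b = n` -/
def SS (y : E) (n : ℕ) : E := ∑ p ∈ antidiagonal n, (p.1.choose p.2 : E) * y ^ p.2

theorem SS_rec (y : E) (n : ℕ) : SS y (n + 2) = SS y (n + 1) + y * SS y n := by
  unfold SS
  rw [Finset.Nat.antidiagonal_succ_succ', Finset.Nat.antidiagonal_succ']
  simp [Nat.choose_succ_succ, add_mul, Finset.mul_sum]
  rw [add_assoc, ← Finset.sum_add_distrib]
  congr 1
  refine Finset.sum_congr rfl fun p _ => ?_
  ring

theorem SS_closed (w : E) (hw : 1 + w ≠ 0) (n : ℕ) :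
    (1 + w) ^ n * (1 - w) * SS (-kap w) n = 1 - w ^ (n + 1) := by
  induction n using Nat.twoStepInduction with
  | zero => simp [SS]
  | one => simp [SS, Finset.Nat.antidiagonal_succ]; ring
  | more n h1 h2 =>
    rw [SS_rec]
    have hk : (1 + w) ^ 2 * kap w = w := by
      unfold kap; field_simp
    calc (1 + w) ^ (n + 2) * (1 - w) * (SS (-kap w) (n + 1) + -kap w * SS (-kap w) n)
        = (1 + w) * ((1 + w) ^ (n + 1) * (1 - w) * SS (-kap w) (n + 1))
          - ((1 + w) ^ 2 * kap w) * ((1 + w) ^ n * (1 - w) * SS (-kap w) n) := by ring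
      _ = (1 + w) * (1 - w ^ (n + 1 + 1)) - w * (1 - w ^ (n + 1)) := by rw [h1, h2, hk]
      _ = 1 - w ^ (n + 2 + 1) := by ring

theorem sum_cf (m : ℕ) (k : E) :
    ∑ j ∈ (range (m + 1)).filter (fun j => 2 * j < m + 1), (cf (m + 1) j : E) * k ^ j = SS (-k) m := by
  unfold SS
  rw [Finset.Nat.sum_antidiagonal_eq_sum_range_succ_mk]
  rw [← Finset.sum_range_reflect, Finset.sum_filter]
  refine Finset.sum_congr rfl fun j hj => ?_
  have hj' : j ≤ m := by simpa [Nat.lt_succ_iff] using hj
  simp only [cf, Nat.succ_eq_add_one]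
  have e1 : m + 1 - 1 - j = m - j := by omega
  have e2 : m - (m - j) = j := by omega
  have e3 : m + 1 - j - 1 = m - j := by omega
  rw [e1, e2, e3]
  split_ifs with h
  · rw [neg_pow k j]; ring
  · rw [Nat.choose_eq_zero_of_lt (by omega)]; simp

/-- constant sequences satisfy all relations -/
theorem cheb {m : ℕ} (hm : 1 ≤ m) {w : E} (hw : w ^ m = 1) (h1 : w ≠ 1) (h2 : 1 + w ≠ 0) :
    ∑ j ∈ (range m).filter (fun j => 2 * j < m), (cf m j : E) * kap w ^ j = 0 := by
  obtain ⟨n, rfl⟩ : ∃ n, m = n + 1 := ⟨m - 1, by omega⟩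
  rw [sum_cf]
  have h := SS_closed w h2 n
  rw [hw, sub_self] at h
  have h3 : (1 + w) ^ n * (1 - w) ≠ 0 :=
    mul_ne_zero (pow_ne_zero _ h2) (sub_ne_zero.mpr (Ne.symm h1))
  exact (mul_eq_zero.mp h).resolve_left h3

theorem kap_inj {a b : E} (ha : 1 + a ≠ 0) (hb : 1 + b ≠ 0) (h : kap a = kap b) :
    a = b ∨ a * b = 1 := by
  unfold kap at h
  rw [div_eq_div_iff (pow_ne_zero _ ha) (pow_ne_zero _ hb)] at h
  have : (a - b) * (1 - a * b) = 0 := by linear_combination h
  rcases mul_eq_zero.mp this with h | h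
  · left; exact sub_eq_zero.mp h
  · right; exact (sub_eq_zero.mp h).symm

theorem kap_inv {a : E} (ha : a ≠ 0) : kap a⁻¹ = kap a := by
  unfold kap
  by_cases h : 1 + a = 0
  · have h' : 1 + a⁻¹ = 0 := by
      have : a = -1 := by linear_combination h
      rw [this]; norm_num
    rw [h, h']; simp
  · have h' : 1 + a⁻¹ ≠ 0 := by
      intro h0
      apply h
      have : a * (1 + a⁻¹) = 0 := by rw [h0, mul_zero]
      rw [mul_add, mul_inv_cancel₀ ha] at this
      linear_combination this
    have e : (1 + a⁻¹) = (1 + a) / a := by field_simp; ring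
    rw [e]
    field_simp

variable [CharZero E]

theorem cf_ne {m j : ℕ} (h : 2 * j < m) : (cf m j : E) ≠ 0 := by
  unfold cf
  refine mul_ne_zero (pow_ne_zero _ (by norm_num)) ?_
  exact_mod_cast (Nat.choose_pos (by omega : j ≤ m - j - 1)).ne'

/-- comparison of coefficients: all relations of order `m` force `g` constant on the class -/
theorem key {g : ℕ → E} {m : ℕ} (hm : 1 ≤ m) {z : E} (hz : IsPrimitiveRoot z m)
    (H : ∀ u, 1 ≤ u → 2 * u < m → Rel g m (z ^ u)) :
    ∀ j, 2 * j < m → g (m - 2 * j) = g m := by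
  classical
  set J := (m - 1) / 2 with hJ
  have hz0 : z ≠ 0 := by
    intro h0
    have := hz.pow_eq_one
    rw [h0, zero_pow (by omega)] at this
    exact zero_ne_one this
  have hne1 : ∀ u, 1 ≤ u → u ≤ J → 1 + z ^ u ≠ 0 := by
    intro u h1 h2 h0
    have h3 : z ^ (2 * u) = 1 := by
      have : z ^ u = -1 := by linear_combination h0
      rw [mul_comm, pow_mul, this]; norm_num
    have h4 := (hz.pow_eq_one_iff_dvd _).mp h3
    have := Nat.le_of_dvd (by omega) h4
    omega
  have hne2 : ∀ u, 1 ≤ u → u ≤ J → z ^ u ≠ 1 := by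
    intro u h1 h2 h0
    have h4 := (hz.pow_eq_one_iff_dvd _).mp h0
    have := Nat.le_of_dvd (by omega) h4
    omega
  set D : Polynomial E := ∑ j ∈ range (J + 1),
    Polynomial.C ((g (m - 2 * j) - g m) * cf m j) * Polynomial.X ^ j with hD
  have hdeg : D.natDegree ≤ J := by
    rw [hD]
    refine Polynomial.natDegree_sum_le_of_forall_le _ _ fun j hj => ?_
    refine (Polynomial.natDegree_C_mul_X_pow_le _ _).trans ?_
    simpa [Nat.lt_succ_iff] using hj
  have hcoeff : ∀ j ≤ J, D.coeff j = (g (m - 2 * j) - g m) * cf m j := by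
    intro j hj
    rw [hD]
    simp only [Polynomial.finset_sum_coeff, Polynomial.coeff_C_mul, Polynomial.coeff_X_pow]
    rw [Finset.sum_eq_single j]
    · simp
    · intro b _ hb; simp [Ne.symm hb]
    · intro h; exact absurd (Finset.mem_range.mpr (by omega)) h
  have hrange : (range m).filter (fun j => 2 * j < m) = range (J + 1) := by
    ext j
    simp only [mem_filter, mem_range]
    omega
  have heval : ∀ u, 1 ≤ u → u ≤ J → D.eval (kap (z ^ u)) = 0 := by
    intro u h1 h2
    have hr := H u h1 (by omega)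
    have hc := cheb (E := E) hm (w := z ^ u)
      (by rw [← pow_mul, mul_comm, pow_mul, hz.pow_eq_one, one_pow]) (hne2 u h1 h2) (hne1 u h1 h2)
    unfold Rel at hr
    rw [hrange] at hr hc
    rw [hD]
    simp only [Polynomial.eval_finset_sum, Polynomial.eval_mul, Polynomial.eval_C,
      Polynomial.eval_pow, Polynomial.eval_X]
    have : ∑ j ∈ range (J + 1), (g (m - 2 * j) - g m) * cf m j * kap (z ^ u) ^ j
        = ∑ j ∈ range (J + 1), g (m - 2 * j) * cf m j * kap (z ^ u) ^ j
          - g m * ∑ j ∈ range (J + 1), cf m j * kap (z ^ u) ^ j := by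
      rw [Finset.mul_sum, ← Finset.sum_sub_distrib]
      refine Finset.sum_congr rfl fun j _ => ?_
      ring
    rw [this, hr, hc]; simp
  have heval0 : D.eval 0 = 0 := by
    rw [← Polynomial.coeff_zero_eq_eval_zero, hcoeff 0 (by omega)]
    simp
  set S : Finset E := insert 0 ((Finset.Icc 1 J).image fun u => kap (z ^ u)) with hS
  have hinj : Set.InjOn (fun u => kap (z ^ u)) (Finset.Icc 1 J : Finset ℕ) := by
    intro u hu v hv huv
    simp only [Finset.coe_Icc, Set.mem_Icc] at hu hv
    rcases kap_inj (hne1 u hu.1 hu.2) (hne1 v hv.1 hv.2) huv with h | h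
    · exact hz.pow_inj (by omega) (by omega) h
    · rw [← pow_add] at h
      have h4 := (hz.pow_eq_one_iff_dvd _).mp h
      have := Nat.le_of_dvd (by omega) h4
      omega
  have h0S : (0 : E) ∉ (Finset.Icc 1 J).image fun u => kap (z ^ u) := by
    intro h
    obtain ⟨u, hu, hu'⟩ := Finset.mem_image.mp h
    rw [Finset.mem_Icc] at hu
    unfold kap at hu'
    rw [div_eq_zero_iff] at hu'
    rcases hu' with h | h
    · exact pow_ne_zero _ hz0 h
    · exact pow_ne_zero _ (hne1 u hu.1 hu.2) h
  have hcard : S.card = J + 1 := by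
    rw [hS, Finset.card_insert_of_notMem h0S, Finset.card_image_of_injOn hinj, Nat.card_Icc]
    omega
  have hD0 : D = 0 := by
    refine Polynomial.eq_zero_of_natDegree_lt_card_of_eval_eq_zero' D S ?_ (by omega)
    intro x hx
    rw [hS, Finset.mem_insert, Finset.mem_image] at hx
    rcases hx with rfl | ⟨u, hu, rfl⟩
    · exact heval0
    · rw [Finset.mem_Icc] at hu; exact heval u hu.1 hu.2
  intro j hj
  have h := hcoeff j (by omega)
  rw [hD0, Polynomial.coeff_zero] at h
  have h2 := (mul_eq_zero.mp h.symm).resolve_right (cf_ne hj)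
  exact sub_eq_zero.mp h2

end Vale.Agent.P097.H970.D4
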