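import Vale.Agent.P097.H970.D4.Gal

/-! # P097 / disc / D4 (helper970): rigidity over a Galois extension of `ℚ` -/

set_option linter.all false

open Finset

namespace Vale.Agent.P097.H970.D4

variable {E : Type*} [Field E] [CharZero E] [IsGalois ℚ E]

theorem map_kap (σ : E ≃ₐ[ℚ] E) (w : E) : σ (kap w) = kap (σ w) := by
  simp [kap]

theorem map_cf (σ : E ≃ₐ[ℚ] E) (m j : ℕ) : σ (cf m j) = cf m j := by
  simp [cf]

/-- an automorphism fixing all values of `g` transports the relations -/
theorem Rel.map {g : ℕ → E} {m : ℕ} {w : E} (h : Rel g m w) (σ : E ≃ₐ[ℚ] E)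
    (hσ : ∀ k, σ (g k) = g k) : Rel g m (σ w) := by
  have h' := congrArg σ h
  rw [map_zero, map_sum] at h'
  unfold Rel
  rw [← h']
  refine Finset.sum_congr rfl fun j _ => ?_
  rw [map_mul, map_mul, map_pow, map_kap, map_cf, hσ]

/-- Thue step: an automorphism fixing the first values of `g` fixes all of them -/
theorem inv_all {z : ℕ → E} (hz : ∀ m, 1 ≤ m → IsPrimitiveRoot (z m) m) {g : ℕ → E} {M : ℕ}
    (hM : 2 ≤ M) (H : ∀ m, M ≤ m → ∀ p, 0 < p → p * p ≤ m → Rel g m (z m ^ p))
    (σ : E ≃ₐ[ℚ] E) (hσ : ∀ k < M, σ (g k) = g k) : ∀ k, σ (g k) = g k := by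
  intro k
  induction k using Nat.strong_induction_on with
  | _ m ih =>
    by_cases hmM : m < M
    · exact hσ m hmM
    · have hm : M ≤ m := not_lt.mp hmM
      haveI : NeZero m := ⟨by omega⟩
      have hp := hz m (by omega)
      have hp' : IsPrimitiveRoot (σ (z m)) m := hp.map_of_injective (f := σ) σ.injective
      obtain ⟨u, -, hu, hu'⟩ := (hp.isPrimitiveRoot_iff).mp hp'
      obtain ⟨a, b, ha, hb, ha2, hb2, hab⟩ := thue (by omega : 2 ≤ m) hu
      have hz0 : z m ≠ 0 := hp.ne_zero (by omega)
      -- the images of the two parameters agree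
      have hk : kap (σ (z m ^ a)) = kap (z m ^ b) := by
        rw [map_pow, ← hu', ← pow_mul]
        rcases hab with h | h
        · have : z m ^ (u * a) = z m ^ b := by
            rw [← zpow_natCast, ← zpow_natCast]
            have h1 : z m ^ (((u * a : ℕ) : ℤ) - (b : ℤ)) = 1 := by
              obtain ⟨t, ht⟩ := h
              push_cast
              rw [ht, zpow_mul, zpow_natCast, hp.pow_eq_one, one_zpow]
            rw [zpow_sub₀ hz0] at h1
            rw [div_eq_one_iff_eq (zpow_ne_zero _ hz0)] at h1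
            exact h1
          rw [this]
        · have : z m ^ (u * a) = (z m ^ b)⁻¹ := by
            rw [← zpow_natCast, ← zpow_natCast]
            have h1 : z m ^ (((u * a : ℕ) : ℤ) + (b : ℤ)) = 1 := by
              obtain ⟨t, ht⟩ := h
              push_cast
              rw [ht, zpow_mul, zpow_natCast, hp.pow_eq_one, one_zpow]
            rw [zpow_add₀ hz0] at h1
            exact eq_inv_of_mul_eq_one_left h1
          rw [this, kap_inv (pow_ne_zero _ hz0)]
      have h1 := H m hm a ha ha2
      have h2 := H m hm b hb hb2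
      have h1' := congrArg σ h1
      rw [map_zero, map_sum] at h1'
      unfold Rel at h2
      have h0 : (0 : ℕ) ∈ (range m).filter (fun j => 2 * j < m) := by
        simp only [mem_filter, mem_range]; omega
      rw [← Finset.add_sum_erase _ _ h0] at h1' h2
      have e : ∑ j ∈ ((range m).filter (fun j => 2 * j < m)).erase 0,
            σ (g (m - 2 * j) * cf m j * kap (z m ^ a) ^ j)
          = ∑ j ∈ ((range m).filter (fun j => 2 * j < m)).erase 0,
            g (m - 2 * j) * cf m j * kap (z m ^ b) ^ j := by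
        refine Finset.sum_congr rfl fun j hj => ?_
        simp only [mem_erase, mem_filter, mem_range] at hj
        rw [map_mul, map_mul, map_pow, map_kap, map_cf, hk, ih (m - 2 * j) (by omega)]
      rw [e] at h1'
      have h3 := h1'.trans h2.symm
      have h4 := add_right_cancel h3
      simp only [mul_zero, Nat.sub_zero, pow_zero, mul_one, map_mul, map_cf] at h4
      exact mul_right_cancel₀ (cf_ne (by omega)) h4

/-- rigidity over a Galois extension of `ℚ` -/
theorem rigid {z : ℕ → E} (hz : ∀ m, 1 ≤ m → IsPrimitiveRoot (z m) m) {g : ℕ → E} {M : ℕ}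
    (hM : 4 ≤ M) (H : ∀ m, M ≤ m → ∀ p, 0 < p → p * p ≤ m → Rel g m (z m ^ p)) (i : ℕ) :
    g (2 * i + 1) = g 1 ∧ g (2 * i + 2) = g 2 := by
  classical
  obtain ⟨l, hl, hlB, htr⟩ := good_prime hz ((range M).image g) (M + 2 * i + 2)
  have hfix : ∀ σ : E ≃ₐ[ℚ] E, (∀ x ∈ (range M).image g, σ x = x) → ∀ k, σ (g k) = g k := by
    intro σ hσ
    exact inv_all hz (by omega) H σ fun k hk =>
      hσ _ (Finset.mem_image_of_mem _ (Finset.mem_range.mpr hk))
  have hodd : l % 2 = 1 := by
    rcases hl.eq_two_or_odd with h | h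
    · omega
    · exact h
  have hl0 : 0 < l := hl.pos
  constructor
  · -- odd part, `m = l`
    have hzl := hz l hl0
    have key1 := key (g := g) (by omega : 1 ≤ l) hzl (by
      intro u hu1 hu2
      have hw' : IsPrimitiveRoot (z l ^ u) l := hzl.pow_of_coprime u
        (Nat.coprime_of_lt_prime (by omega) (by omega) hl).symm
      obtain ⟨σ, hσ1, hσ2⟩ := htr _ _ hzl hw'
      have := (H l (by omega) 1 (by omega) (by omega)).map σ (hfix σ hσ1)
      rwa [pow_one, hσ2] at this)
    have a1 := key1 ((l - (2 * i + 1)) / 2) (by omega)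
    have a2 := key1 ((l - 1) / 2) (by omega)
    rw [show l - 2 * ((l - (2 * i + 1)) / 2) = 2 * i + 1 by omega] at a1
    rw [show l - 2 * ((l - 1) / 2) = 1 by omega] at a2
    rw [a1, a2]
  · -- even part, `m = 2 l`
    have hZ := hz (2 * l) (by omega)
    set Z := z (2 * l) with hZdef
    have hZ2 : IsPrimitiveRoot (Z ^ 2) l := hZ.pow (by omega) rfl
    have hprim : ∀ t, t % 2 = 0 → 0 < t → t < 2 * l → IsPrimitiveRoot (Z ^ t) l := by
      intro t h1 h2 h3
      obtain ⟨s, rfl⟩ : ∃ s, t = 2 * s := ⟨t / 2, by omega⟩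
      rw [pow_mul]
      exact hZ2.pow_of_coprime s (Nat.coprime_of_lt_prime (by omega) (by omega) hl).symm
    have hZl : Z ^ l = -1 := by
      have h1 : (Z ^ l - 1) * (Z ^ l + 1) = 0 := by
        have := hZ.pow_eq_one
        rw [mul_comm, pow_mul] at this
        linear_combination this
      rcases mul_eq_zero.mp h1 with h | h
      · exfalso
        have h2 := (hZ.pow_eq_one_iff_dvd l).mp (sub_eq_zero.mp h)
        have := Nat.le_of_dvd hl0 h2
        omega
      · linear_combination h
    have key2 := key (g := g) (by omega : 1 ≤ 2 * l) hZ (by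
      intro u hu1 hu2
      rcases Nat.mod_two_eq_zero_or_one u with hu | hu
      · obtain ⟨σ, hσ1, hσ2⟩ := htr _ _ hZ2 (hprim u hu (by omega) (by omega))
        have := (H (2 * l) (by omega) 2 (by omega) (by omega)).map σ (hfix σ hσ1)
        rwa [← hZdef, hσ2] at this
      · obtain ⟨σ, hσ1, hσ2⟩ := htr _ _ (hprim (l + 1) (by omega) (by omega) (by omega))
          (hprim (l + u) (by omega) (by omega) (by omega))
        rw [pow_add, pow_add, hZl, pow_one, neg_one_mul, neg_one_mul, map_neg, neg_inj] at hσ2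
        have := (H (2 * l) (by omega) 1 (by omega) (by omega)).map σ (hfix σ hσ1)
        rwa [← hZdef, pow_one, hσ2] at this)
    have a1 := key2 (l - (i + 1)) (by omega)
    have a2 := key2 (l - 1) (by omega)
    rw [show 2 * l - 2 * (l - (i + 1)) = 2 * i + 2 by omega] at a1
    rw [show 2 * l - 2 * (l - 1) = 2 by omega] at a2
    rw [a1, a2]

end Vale.Agent.P097.H970.D4
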