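import Vale.Agent.P097.H970.D4.Cheb

/-! # P097 / disc / D4 (helper970): the Galois part (good primes, Thue) -/

set_option linter.all false

open Finset

namespace Vale.Agent.P097.H970.D4

variable {E : Type*} [Field E] [CharZero E] [IsGalois ℚ E]

/-- an automorphism acting as a prescribed power on `l`-th roots of unity, finitely many primes -/
theorem gal_exists {z : ℕ → E} (hz : ∀ m, 1 ≤ m → IsPrimitiveRoot (z m) m)
    (S : Finset ℕ) (hS : ∀ l ∈ S, l.Prime) (u : ℕ → ℕ) (hu : ∀ l ∈ S, (u l).Coprime l) :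
    ∃ σ : E ≃ₐ[ℚ] E, ∀ l ∈ S, ∀ w : E, w ^ l = 1 → σ w = w ^ (u l) := by
  classical
  obtain ⟨v, hv⟩ := Nat.chineseRemainderOfFinset u (fun l => l) S
    (fun l hl => (hS l hl).ne_zero)
    (fun a ha b hb hab => (Nat.coprime_primes (hS a ha) (hS b hb)).mpr hab)
  set n := ∏ l ∈ S, l with hn
  have hn1 : 1 ≤ n := Finset.prod_pos fun l hl => (hS l hl).pos
  have hvn : v.Coprime n := by
    rw [hn]
    refine Nat.Coprime.prod_right fun l hl => ?_
    have := (hv l hl).gcd_eq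
    rw [Nat.coprime_iff_gcd_eq_one, this]
    exact hu l hl
  have hp := hz n hn1
  have hp' : IsPrimitiveRoot (z n ^ v) n := hp.pow_of_coprime v hvn
  have halg : IsAlgebraic ℚ (z n) := (IsPrimitiveRoot.isIntegral hp hn1).tower_top.isAlgebraic
  obtain ⟨σ, hσ⟩ : ∃ σ : E ≃ₐ[ℚ] E, σ (z n) = z n ^ v := by
    refine minpoly.exists_algEquiv_of_root' halg ?_
    rw [← Polynomial.cyclotomic_eq_minpoly_rat hp hn1, Polynomial.cyclotomic_eq_minpoly_rat hp' hn1]
    exact minpoly.aeval _ _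
  refine ⟨σ, fun l hl w hw => ?_⟩
  have hln : l ∣ n := Finset.dvd_prod_of_mem _ hl
  obtain ⟨t, ht⟩ := hln
  have hwn : w ^ n = 1 := by rw [ht, pow_mul, hw, one_pow]
  haveI : NeZero n := ⟨by omega⟩
  obtain ⟨k, -, hk⟩ := hp.eq_pow_of_pow_eq_one hwn
  have h1 : σ w = w ^ v := by
    rw [← hk, map_pow, hσ, ← pow_mul, ← pow_mul, mul_comm]
  rw [h1]
  have h2 := hv l hl
  rw [← pow_mod_orderOf w v, ← pow_mod_orderOf w (u l)]
  congr 1
  exact Nat.ModEq.of_dvd (orderOf_dvd_of_pow_eq_one hw) h2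

/-- for a finite set `T` of algebraic numbers there are arbitrarily large primes `l` such that the
automorphisms fixing `T` act transitively on the primitive `l`-th roots of unity -/
theorem good_prime {z : ℕ → E} (hz : ∀ m, 1 ≤ m → IsPrimitiveRoot (z m) m)
    (T : Finset E) (B : ℕ) :
    ∃ l : ℕ, l.Prime ∧ B < l ∧ ∀ w w' : E, IsPrimitiveRoot w l → IsPrimitiveRoot w' l →
      ∃ σ : E ≃ₐ[ℚ] E, (∀ x ∈ T, σ x = x) ∧ σ w = w' := by
  classical
  by_contra hcon
  push Not at hcon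
  have hbad : ∀ l : ℕ, ∃ u : ℕ, ∃ w : E, l.Prime → B < l → (u.Coprime l ∧ IsPrimitiveRoot w l ∧
      ∀ σ : E ≃ₐ[ℚ] E, (∀ x ∈ T, σ x = x) → σ w ≠ w ^ u) := by
    intro l
    by_cases h : l.Prime ∧ B < l
    · obtain ⟨w, w', hw, hw', hh⟩ := hcon l h.1 h.2
      haveI : NeZero l := ⟨h.1.ne_zero⟩
      obtain ⟨i, -, hi, hi'⟩ := (hw.isPrimitiveRoot_iff).mp hw'
      exact ⟨i, w, fun _ _ => ⟨hi, hw, fun σ hσ => hi' ▸ hh σ hσ⟩⟩
    · exact ⟨0, 0, fun h1 h2 => absurd ⟨h1, h2⟩ h⟩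
  choose U W hUW using hbad
  -- enumeration of the primes beyond `B`
  have hinf : (setOf fun l : ℕ => l.Prime ∧ B < l).Infinite := by
    rw [Set.infinite_iff_exists_gt]
    intro a
    obtain ⟨p, hp1, hp2⟩ := Nat.exists_infinite_primes (max a B + 1)
    exact ⟨p, ⟨hp2, by omega⟩, by omega⟩
  set p : ℕ → ℕ := Nat.nth (fun l : ℕ => l.Prime ∧ B < l) with hpdef
  have hpm : ∀ j, (p j).Prime ∧ B < p j := fun j => Nat.nth_mem_of_infinite hinf j
  have hpinj : Function.Injective p := Nat.nth_injective hinf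
  have hmem : ∀ (σ : E ≃ₐ[ℚ] E) (x : E), σ x ∈ (minpoly ℚ x).rootSet E := by
    intro σ x
    have hx : IsIntegral ℚ x := (IsGalois.integral ℚ x)
    rw [Polynomial.mem_rootSet]
    refine ⟨minpoly.ne_zero hx, ?_⟩
    have : (Polynomial.aeval (σ x)) (minpoly ℚ x) = σ ((Polynomial.aeval x) (minpoly ℚ x)) :=
      Polynomial.aeval_algHom_apply (σ : E →ₐ[ℚ] E) x (minpoly ℚ x)
    rw [this, minpoly.aeval, map_zero]
  let R : Type _ := ∀ x : T, ((minpoly ℚ (x : E)).rootSet E)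
  haveI : Fintype R := inferInstanceAs (Fintype (∀ x : T, ((minpoly ℚ (x : E)).rootSet E)))
  set d := Fintype.card R with hd
  have hτ : ∀ i : ℕ, ∃ τ : E ≃ₐ[ℚ] E, ∀ j < d + 1, ∀ w : E, w ^ (p j) = 1 →
      τ w = if j < i then w ^ (U (p j)) else w := by
    intro i
    obtain ⟨σ, hσ⟩ := gal_exists hz ((range (d + 1)).image p)
      (by
        intro l hl
        obtain ⟨j, -, rfl⟩ := Finset.mem_image.mp hl
        exact (hpm j).1)
      (fun l => if ∃ j, j < i ∧ p j = l then U l else 1)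
      (by
        intro l hl
        obtain ⟨j, -, rfl⟩ := Finset.mem_image.mp hl
        split_ifs with h
        · exact (hUW (p j) (hpm j).1 (hpm j).2).1
        · exact Nat.coprime_one_left _)
    refine ⟨σ, fun j hj w hw => ?_⟩
    rw [hσ (p j) (Finset.mem_image_of_mem _ (Finset.mem_range.mpr hj)) w hw]
    by_cases hji : j < i
    · rw [if_pos hji, if_pos ⟨j, hji, rfl⟩]
    · rw [if_neg hji, if_neg, pow_one]
      rintro ⟨j', hj', he⟩
      exact hji (hpinj he ▸ hj')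
  choose τ hτ' using hτ
  let Φ : Fin (d + 1) → R := fun i x => ⟨τ i x, hmem (τ i) x⟩
  obtain ⟨a, b, hab, hEq⟩ := Fintype.exists_ne_map_eq_of_card_lt Φ
    (by rw [Fintype.card_fin]; omega)
  have main : ∀ a b : Fin (d + 1), (a : ℕ) < b → Φ a = Φ b → False := by
    intro a b hlt hEq
    obtain ⟨-, hW, hno⟩ := hUW (p a) (hpm a).1 (hpm a).2
    refine hno ((τ b).trans (τ a).symm) ?_ ?_
    · intro x hx
      have h := congrFun hEq ⟨x, hx⟩
      have h' : τ a x = τ b x := congrArg Subtype.val h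
      simp only [AlgEquiv.trans_apply]
      rw [← h']
      exact (τ a).symm_apply_apply x
    · have h1 := hτ' b a a.2 (W (p a)) hW.pow_eq_one
      rw [if_pos hlt] at h1
      have h2 := hτ' a a a.2 (W (p a)) hW.pow_eq_one
      rw [if_neg (lt_irrefl _)] at h2
      have h3 : (τ a).symm (W (p a)) = W (p a) := by
        rw [AlgEquiv.symm_apply_eq]; exact h2.symm
      simp only [AlgEquiv.trans_apply]
      rw [h1, map_pow, h3]
  rcases lt_or_gt_of_ne (fun h => hab (Fin.ext h) : (a : ℕ) ≠ b) with h | h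
  · exact main a b h hEq
  · exact main b a h hEq.symm

/-- Thue's lemma -/
theorem thue {m u : ℕ} (hm : 2 ≤ m) (hu : u.Coprime m) :
    ∃ a b : ℕ, 0 < a ∧ 0 < b ∧ a * a ≤ m ∧ b * b ≤ m ∧
      ((m : ℤ) ∣ (u * a : ℤ) - b ∨ (m : ℤ) ∣ (u * a : ℤ) + b) := by
  classical
  haveI : NeZero m := ⟨by omega⟩
  set r := Nat.sqrt m with hr
  have hr1 : r * r ≤ m := Nat.sqrt_le m
  have hr2 : m < (r + 1) * (r + 1) := Nat.lt_succ_sqrt m
  have hrm : r < m := Nat.sqrt_lt_self (by omega)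
  obtain ⟨⟨x1, y1⟩, h1, ⟨x2, y2⟩, h2, hne, heq⟩ :=
    Finset.exists_ne_map_eq_of_card_lt_of_maps_to
      (s := range (r + 1) ×ˢ range (r + 1)) (t := (Finset.univ : Finset (ZMod m)))
      (f := fun q => ((u : ZMod m) * (q.1 : ZMod m) - (q.2 : ZMod m)))
      (by
        rw [Finset.card_product, Finset.card_range, Finset.card_univ, ZMod.card]
        exact hr2)
      (fun _ _ => Finset.mem_univ _)
  simp only [Finset.mem_product, Finset.mem_range] at h1 h2
  simp only at heq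
  set X : ℤ := (x1 : ℤ) - x2 with hX
  set Y : ℤ := (y1 : ℤ) - y2 with hY
  have hdvd : (m : ℤ) ∣ u * X - Y := by
    refine (ZMod.intCast_zmod_eq_zero_iff_dvd _ _).mp ?_
    rw [hX, hY]
    push_cast
    linear_combination heq
  have hXr : X.natAbs ≤ r := by omega
  have hYr : Y.natAbs ≤ r := by omega
  have hXY : ¬ (X = 0 ∧ Y = 0) := by
    rintro ⟨hx, hy⟩
    apply hne
    ext <;> simp <;> omega
  have hX0 : X ≠ 0 := by
    intro h0
    rw [h0, mul_zero, zero_sub, dvd_neg] at hdvd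
    have := Int.eq_zero_of_abs_lt_dvd hdvd (by rw [Int.abs_eq_natAbs]; omega)
    exact hXY ⟨h0, this⟩
  have hY0 : Y ≠ 0 := by
    intro h0
    rw [h0, sub_zero] at hdvd
    have hc : IsCoprime (m : ℤ) (u : ℤ) := Nat.isCoprime_iff_coprime.mpr hu.symm
    have := Int.eq_zero_of_abs_lt_dvd (hc.dvd_of_dvd_mul_left hdvd)
      (by rw [Int.abs_eq_natAbs]; omega)
    exact hX0 this
  refine ⟨X.natAbs, Y.natAbs, Int.natAbs_pos.mpr hX0, Int.natAbs_pos.mpr hY0,
    (Nat.mul_le_mul hXr hXr).trans hr1, (Nat.mul_le_mul hYr hYr).trans hr1, ?_⟩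
  rcases Int.natAbs_eq X with hx | hx <;> rcases Int.natAbs_eq Y with hy | hy
  · left; rw [hx, hy] at hdvd; exact hdvd
  · right; rw [hx, hy] at hdvd; simpa using hdvd
  · right
    rw [hx, hy] at hdvd
    have : (u : ℤ) * (X.natAbs : ℤ) + (Y.natAbs : ℤ)
        = -((u : ℤ) * -(X.natAbs : ℤ) - (Y.natAbs : ℤ)) := by ring
    rw [this]; exact (dvd_neg).mpr hdvd
  · left
    rw [hx, hy] at hdvd
    have : (u : ℤ) * (X.natAbs : ℤ) - (Y.natAbs : ℤ)
        = -((u : ℤ) * -(X.natAbs : ℤ) - -(Y.natAbs : ℤ)) := by ring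
    rw [this]; exact (dvd_neg).mpr hdvd

end Vale.Agent.P097.H970.D4
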